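import Vale.Agent.Lib.P123.Quadratic

/-- Crouzeix's inequality with the constant `2` for every polynomial of degree at most two and
every bounded operator on a nonzero complex inner product space: if `|P| ≤ M` on the numerical
range `{⟪x, A x⟫ : ‖x‖ = 1}`, then `‖P(A)‖ ≤ 2 M`. -/
theorem Vale.Agent.Results.P123.A_degree_two.result {H : Type*} [NormedAddCommGroup H]
    [InnerProductSpace ℂ H] [Nontrivial H] (A : H →L[ℂ] H) (P : Polynomial ℂ)
    (hP : P.natDegree ≤ 2) (M : ℝ)
    (hM : ∀ x : H, ‖x‖ = 1 → ‖P.eval (inner ℂ x (A x))‖ ≤ M) :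
    ‖Polynomial.aeval A P‖ ≤ 2 * M :=
  Vale.Agent.Lib.P123.poly_bound A P hP M hM
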