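import Vale.Agent.Lib.P123.U.Reduce

/-! A universal improvement of the Crouzeix-Palencia bound: the Crouzeix constant is strictly
smaller than `1 + √2`. -/

open Polynomial

namespace Vale.Agent.Results.P123.B_universal

universe u

/-- There is a constant `C < 1 + √2` such that `‖P(A)‖ ≤ C * sup_{W(A)} |P|` for every bounded
operator `A` on every nonzero complex inner product space and every polynomial `P`. -/
theorem result : ∃ C : ℝ, C < 1 + Real.sqrt 2 ∧ ∀ {H : Type u} [NormedAddCommGroup H]
    [InnerProductSpace ℂ H] [Nontrivial H] (A : H →L[ℂ] H) (P : ℂ[X]) (M : ℝ),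
    (∀ x : H, ‖x‖ = 1 → ‖P.eval (inner ℂ x (A x))‖ ≤ M) → ‖aeval A P‖ ≤ C * M :=
  P123U.Reduce.final.{u}

end Vale.Agent.Results.P123.B_universal
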